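import Vale.Agent.P211.Cert.Pair.Data.HessOuterH.Base

/-!
P211, data: the root `outerH` of the Hessian weight, generated from the exact search.
-/

namespace Vale.Agent.P211.Cert.Pair.HessOuterH

open Vale.Agent.P098.Check6 (Face St ofChunks reach)
open Vale.Agent.P098.Cert6.Kron (RootPar)

/-- A subtree. -/
def tree0 : Check.Tree (Option ℕ) :=
  .node 3
    (.node 1
    (.node 0
    (.node 1
    (.node 1
    (.leaf none)
    (.leaf none))
    (.leaf none))
    (.node 3
    (.node 1
    (.node 0
    (.node 3
    (.node 0
    (.node 0
    (.node 1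
    (.node 0
    (.leaf none)
    (.leaf (some 1)))
    (.node 0
    (.node 0
    (.leaf none)
    (.node 1
    (.node 0
    (.leaf none)
    (.node 3
    (.node 0
    (.leaf none)
    (.leaf (some 1)))
    (.leaf none)))
    (.leaf none)))
    (.leaf (some 1))))
    (.leaf (some 1)))
    (.leaf (some 1)))
    (.node 0
    (.node 1
    (.node 0
    (.leaf none)
    (.leaf (some 1)))
    (.node 0
    (.leaf none)
    (.leaf (some 1))))
    (.leaf (some 1))))
    (.leaf (some 1)))
    (.node 0
    (.node 0
    (.node 1
    (.node 3
    (.node 0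
    (.node 0
    (.leaf none)
    (.leaf (some 1)))
    (.leaf (some 1)))
    (.node 0
    (.leaf none)
    (.leaf (some 1))))
    (.leaf (some 1)))
    (.leaf (some 1)))
    (.leaf (some 1))))
    (.node 1
    (.node 3
    (.node 0
    (.leaf none)
    (.leaf (some 1)))
    (.node 0
    (.node 1
    (.leaf none)
    (.node 0
    (.leaf none)
    (.leaf (some 1))))
    (.leaf (some 1))))
    (.node 3
    (.node 0
    (.node 0
    (.leaf none)
    (.leaf (some 1)))
    (.leaf (some 1)))
    (.node 0
    (.node 0
    (.leaf none)
    (.leaf (some 1)))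
    (.leaf (some 1)))))))
    (.node 1
    (.node 0
    (.node 3
    (.node 0
    (.node 1
    (.leaf none)
    (.node 3
    (.node 1
    (.leaf none)
    (.node 0
    (.leaf none)
    (.node 1
    (.node 0
    (.leaf none)
    (.node 3
    (.node 1
    (.leaf none)
    (.leaf (some 1)))
    (.leaf none)))
    (.node 0
    (.node 3
    (.node 1
    (.node 0
    (.leaf none)
    (.leaf (some 1)))
    (.leaf (some 1)))
    (.leaf none))
    (.leaf (some 1))))))
    (.node 1
    (.leaf none)
    (.node 0
    (.leaf none)
    (.node 1
    (.leaf none)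
    (.node 0
    (.leaf none)
    (.leaf (some 1))))))))
    (.node 1
    (.node 0
    (.leaf none)
    (.node 3
    (.node 1
    (.leaf none)
    (.leaf (some 1)))
    (.leaf none)))
    (.node 1
    (.node 0
    (.node 3
    (.node 3
    (.node 1
    (.node 0
    (.leaf none)
    (.leaf (some 1)))
    (.leaf (some 1)))
    (.node 0
    (.leaf none)
    (.leaf (some 1))))
    (.leaf none))
    (.leaf (some 1)))
    (.leaf (some 1)))))
    (.node 0
    (.leaf none)
    (.node 1
    (.leaf none)
    (.node 1
    (.node 0
    (.leaf none)
    (.leaf (some 1)))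
    (.leaf (some 1))))))
    (.leaf (some 1)))
    (.node 3
    (.node 1
    (.node 0
    (.node 0
    (.node 1
    (.node 0
    (.node 3
    (.node 1
    (.node 0
    (.leaf none)
    (.node 1
    (.node 3
    (.node 0
    (.leaf none)
    (.leaf (some 1)))
    (.leaf none))
    (.node 3
    (.node 0
    (.node 3
    (.node 1
    (.node 3
    (.node 0
    (.leaf none)
    (.leaf (some 1)))
    (.leaf none))
    (.leaf (some 1)))
    (.leaf none))
    (.leaf (some 1)))
    (.node 0
    (.leaf none)
    (.leaf (some 1))))))
    (.node 0
    (.node 1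
    (.node 3
    (.node 0
    (.node 1
    (.leaf none)
    (.node 3
    (.node 0
    (.leaf none)
    (.leaf (some 1)))
    (.leaf none)))
    (.leaf (some 1)))
    (.leaf none))
    (.leaf (some 1)))
    (.leaf (some 1))))
    (.node 1
    (.leaf none)
    (.node 0
    (.node 1
    (.leaf none)
    (.leaf (some 1)))
    (.leaf (some 1)))))
    (.leaf (some 1)))
    (.leaf (some 1)))
    (.leaf (some 1)))
    (.leaf (some 1)))
    (.leaf (some 1)))
    (.node 1
    (.node 0
    (.node 0
    (.node 1
    (.node 0
    (.node 1
    (.leaf none)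
    (.node 0
    (.node 1
    (.leaf none)
    (.leaf (some 1)))
    (.leaf (some 1))))
    (.leaf (some 1)))
    (.leaf (some 1)))
    (.leaf (some 1)))
    (.leaf (some 1)))
    (.leaf (some 1))))))
    (.node 1
    (.node 3
    (.node 0
    (.node 1
    (.leaf none)
    (.leaf none))
    (.node 1
    (.node 0
    (.node 1
    (.node 3
    (.leaf none)
    (.node 1
    (.node 0
    (.leaf none)
    (.leaf (some 1)))
    (.node 0
    (.node 0
    (.leaf none)
    (.leaf (some 1)))
    (.leaf (some 1)))))
    (.node 0
    (.node 0
    (.node 1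
    (.node 0
    (.leaf none)
    (.leaf (some 1)))
    (.node 0
    (.leaf none)
    (.leaf (some 1))))
    (.leaf (some 1)))
    (.leaf (some 1))))
    (.leaf (some 1)))
    (.node 0
    (.node 0
    (.node 0
    (.node 1
    (.node 0
    (.leaf none)
    (.leaf (some 1)))
    (.leaf (some 1)))
    (.leaf (some 1)))
    (.leaf (some 1)))
    (.leaf (some 1)))))
    (.node 0
    (.leaf none)
    (.node 1
    (.node 3
    (.node 0
    (.node 1
    (.node 0
    (.node 1
    (.leaf none)
    (.node 0
    (.leaf none)
    (.leaf (some 1))))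
    (.leaf (some 1)))
    (.node 0
    (.node 0
    (.node 0
    (.leaf none)
    (.leaf (some 1)))
    (.leaf (some 1)))
    (.leaf (some 1))))
    (.leaf (some 1)))
    (.node 0
    (.node 0
    (.node 1
    (.node 0
    (.leaf none)
    (.leaf (some 1)))
    (.node 0
    (.leaf none)
    (.leaf (some 1))))
    (.leaf (some 1)))
    (.leaf (some 1))))
    (.node 0
    (.node 0
    (.node 3
    (.node 0
    (.node 1
    (.node 0
    (.leaf none)
    (.leaf (some 1)))
    (.leaf (some 1)))
    (.leaf (some 1)))
    (.node 0
    (.leaf none)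
    (.leaf (some 1))))
    (.leaf (some 1)))
    (.leaf (some 1))))))
    (.node 1
    (.node 0
    (.leaf none)
    (.leaf (some 1)))
    (.node 3
    (.node 0
    (.node 1
    (.node 0
    (.node 1
    (.node 0
    (.node 1
    (.leaf none)
    (.node 0
    (.leaf none)
    (.leaf (some 1))))
    (.leaf (some 1)))
    (.leaf (some 1)))
    (.leaf (some 1)))
    (.leaf (some 1)))
    (.leaf (some 1)))
    (.node 0
    (.node 1
    (.node 0
    (.node 1
    (.leaf none)
    (.leaf (some 1)))
    (.leaf (some 1)))
    (.leaf (some 1)))
    (.leaf (some 1))))))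

theorem chunk0 : Check.GoodSign cfg (reach cfg base []) :=
  Check.checkSign_sound tree0 (by decide +kernel)

end Vale.Agent.P211.Cert.Pair.HessOuterH
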